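import Vale.Agent.P284.H551.V.Rel2
import Vale.Agent.P284.H366.V.Rel
import Vale.Agent.P284.H977.T.Mod

/-!
# P284, theorem T3 (helper551): from the densities of sections with values in real Hilbert spaces to the
sequence of forms (`AOutV`)
-/

open scoped Manifold ContDiff Topology Pointwise ComplexConjugate ComplexOrder Matrix InnerProductSpace
open Filter Set Metric MeasureTheory

noncomputable section

set_option linter.unusedSectionVars false

namespace Vale.Agent.P284.H551.Rel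

open Vale.Agent.P272.K Vale.Agent.P272.K.C2 Vale.Agent.P284.H248 Vale.Agent.P284.H894
  Vale.Agent.P284.H894.G Vale.Agent.P284.H894.V Vale.Agent.P284.H402.A Vale.Agent.P284.H402.T
  Vale.Agent.P284.H366 Vale.Agent.P284.H913.V

open Vale.Agent.P284.H287.T (dH ddH sg Sec cmp Good exists_good exists_good₂ ddH_cmp dH_cmp
  cmp_contDiffAt ev_diff dd_diff)

section
variable {n q : ℕ} {Γ : Type} [Group Γ] {C : Coc n Γ} {W : Type} [NormedAddCommGroup W]
  [InnerProductSpace ℝ W] {π : Γ →* (W ≃ₗᵢ[ℝ] W)} {u : Γ → C.I → Cm n → W}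

/-- **(a)** -/
theorem dnV_vW (K : KM C) (θ : HF C q) (h : Sec C π 0 u) {a : C.I} {z : Cm n} (hz : z ∈ C.Ω a) :
    dnV K (vtf θ fun γ a z => CW.inc W (u γ a z)) a z = vW K θ 0 a (u 1 a) (u 1 a) z :=
  dnV_eq K θ h hz

/-- the density is a function on the base -/
theorem vW_inv (K : KM C) (θ : HF C q) (h : Sec C π 0 u) {a b : C.I} {z : Cm n}
    (hz : z ∈ C.O a b) : vW K θ 0 a (u 1 a) (u 1 a) z = vW K θ 0 b (u 1 b) (u 1 b) (C.T a b z) := by
  have hza := H639.V.O_sub_Ω C hz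
  have hzb := H639.V.T_mem_Ω C hz
  have h1 : vW K θ 0 b (u (1 * C.κ a b z) b) (u (1 * C.κ a b z) b) (C.T a b z) =
      vW K θ 0 b (u 1 b) (u 1 b) (C.T a b z) := by
    have e1 : ∀ α, dH (u (1 * C.κ a b z) b) (C.T a b z) α =
        π (C.κ a b z) (dH (u 1 b) (C.T a b z) α) := by
      intro α
      have h2 := H977.T.sec_eq h (C.κ a b z) 1 hzb
      have h3 := H977.T.dH_clm ((π (C.κ a b z)).toContinuousLinearEquiv : W →L[ℝ] W) 0
        (h.smooth 1 b _ hzb) α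
      rw [one_mul, ← mul_one (C.κ a b z)]
      have h4 : dH (u (C.κ a b z * 1) b) (C.T a b z) α =
          dH (fun y => π (C.κ a b z) (u 1 b y) + (0 : Γ → W) (C.κ a b z)) (C.T a b z) α := by
        unfold dH
        rw [h2.fderiv_eq]
      rw [h4]
      refine Eq.trans ?_ (h3.trans ?_)
      · rfl
      · rw [mul_one]
        rfl
    unfold vW gM
    refine Finset.sum_congr rfl fun α _ => Finset.sum_congr rfl fun β _ => ?_
    rw [e1, e1, LinearIsometryEquiv.inner_map_map]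
  rw [← h1]
  obtain ⟨m, e, hg, hg'⟩ := exists_good₂ (u 1 a) z (u (1 * C.κ a b z) b) (C.T a b z)
  have hd : DifferentiableAt ℝ (u 1 a) z := (h.smooth 1 a z hza).differentiableAt (by simp)
  have hd' : DifferentiableAt ℝ (u (1 * C.κ a b z) b) (C.T a b z) :=
    (h.smooth _ b _ hzb).differentiableAt (by simp)
  rw [vW, vW, Good_gM hg _ hd hd, Good_gM hg' _ hd' hd']
  refine Finset.sum_congr rfl fun i _ => ?_
  have hp : pd (cmp (u 1 a) (e i)) z =
      (jac C a b z)ᵀ *ᵥ pd (cmp (u (1 * C.κ a b z) b) (e i)) (C.T a b z) :=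
    H730.V.dd_comp (T_hol C hz).self_of_nhds (hd'.inner ℝ (differentiableAt_const _)) (by
      filter_upwards [H977.T.sec_ev h 1 hz] with y hy
      show ⟪u 1 a y, e i⟫_ℝ = ⟪u (1 * C.κ a b z) b (C.T a b y), e i⟫_ℝ
      rw [hy])
  rw [hp]
  exact qf_inv (AA_inv (inv_K K hz) (θ.change a b z hz) 0) _ _

/-- the density is a continuous function on the base -/
theorem bd_vW (K : KM C) (θ : HF C q) (h : Sec C π 0 u) :
    BD C fun a z => vW K θ 0 a (u 1 a) (u 1 a) z where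
  cont _ := (dnV_cont (vtf_form θ (vmap_of_sec h)) K _).congr fun _ hz => (dnV_vW K θ h hz).symm
  compat _ _ _ hz _ _ := vW_inv K θ h hz

/-- one chart is dominated by the integral over the base -/
lemma int_le (P : PU C) (K : KM C) {G : C.I → Cm n → ℝ} (hG : BD C G)
    (h0 : ∀ a, ∀ z ∈ C.Ω a, 0 ≤ G a z) (a : C.I) :
    ∫ z in C.V a, G a z ≤ K.lam⁻¹ * BInt P K G := by
  have hV := (isOpen_V C a).measurableSet
  have h3 : ∫ z in C.V a, G a z ≤ K.lam⁻¹ * ∫ z in C.V a, G a z * vol (K.w a) z := by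
    rw [← integral_const_mul]
    refine setIntegral_mono_on (intV (hG.cont a)) ((hG.int_vol K a).const_mul _) hV
      fun z hz => ?_
    have hz' := H913.V.V_sub C a hz
    have h4 := K.vol_low a z hz'
    have h5 := h0 a z hz'
    have h6 : 1 ≤ K.lam⁻¹ * vol (K.w a) z := by
      rw [inv_mul_eq_div, le_div_iff₀ K.lam_pos, one_mul]
      exact h4
    calc G a z = G a z * 1 := (mul_one _).symm
      _ ≤ G a z * (K.lam⁻¹ * vol (K.w a) z) := mul_le_mul_of_nonneg_left h6 h5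
      _ = _ := by ring
  exact h3.trans (mul_le_mul_of_nonneg_left (hG.le P K h0 a) (inv_pos.2 K.lam_pos).le)

end

section
variable {n q : ℕ} {Γ : Type} [Group Γ] {C : Coc n Γ}

/-- `L²` bound of the values -/
theorem bd_of (P : PU C) (K : KM C) (θ : HF C q) (ξ : Fin (q + 1) → Cm n) :
    ∃ B : ℝ, 0 ≤ B ∧ ∀ (W : Type) [NormedAddCommGroup W] [InnerProductSpace ℝ W]
      (π : Γ →* (W ≃ₗᵢ[ℝ] W)) (u : Γ → C.I → Cm n → W), Sec C π 0 u → ∀ a,
      ∫ z in C.V a, ‖vtf θ (fun γ a z => CW.inc W (u γ a z)) 1 a z ξ‖ ^ 2 ≤ B * enW P K θ 0 u u := by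
  obtain ⟨B, hB0, hB⟩ := H402.B.exists_bX K ξ
  refine ⟨B * K.lam⁻¹, mul_nonneg hB0 (inv_pos.2 K.lam_pos).le, fun W _ _ π u h a => ?_⟩
  have hV := (isOpen_V C a).measurableSet
  have h1 : ∫ z in C.V a, ‖vtf θ (fun γ a z => CW.inc W (u γ a z)) 1 a z ξ‖ ^ 2 ≤
      B * ∫ z in C.V a, vW K θ 0 a (u 1 a) (u 1 a) z := by
    rw [← integral_const_mul]
    refine setIntegral_mono_on ((vtf_form θ (vmap_of_sec h)).int1 1 a ξ)
      ((intV ((bd_vW K θ h).cont a)).const_mul _) hV fun z hz => ?_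
    have hz' := H913.V.V_sub C a hz
    exact (vtf_bd K θ h hz' ξ).trans
      (mul_le_mul_of_nonneg_right (hB a z hz) (vW_nn K θ h 1 hz'))
  refine h1.trans ?_
  rw [mul_assoc]
  exact mul_le_mul_of_nonneg_left
    (int_le P K (bd_vW K θ h) (fun a z hz => vW_nn K θ h 1 hz) a) hB0

/-- `L²` bound of the antilinear derivatives -/
theorem db_of (P : PU C) (K : KM C) (θ : HF C q) (ξ : Fin (q + 1) → Cm n) :
    ∃ B : ℝ, 0 ≤ B ∧ ∀ (W : Type) [NormedAddCommGroup W] [InnerProductSpace ℝ W]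
      (π : Γ →* (W ≃ₗᵢ[ℝ] W)) (u : Γ → C.I → Cm n → W), Sec C π 0 u →
      ∀ m : C.I → Cm n → ℝ, BD C m → (∀ a, ∀ z ∈ C.Ω a, oW K θ a (u 1 a) z ≤ m a z) → ∀ a,
      ∫ z in C.V a, ‖DB (fun y => vtf θ (fun γ a z => CW.inc W (u γ a z)) 1 a y ξ) z‖ ^ 2 ≤
        B * BInt P K m := by
  obtain ⟨B, hB0, hB⟩ := H402.B.exists_bX K ξ
  have hL : 0 ≤ |K.Lam| * n := by positivity
  refine ⟨B * (|K.Lam| * n) * K.lam⁻¹, mul_nonneg (mul_nonneg hB0 hL) (inv_pos.2 K.lam_pos).le,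
    fun W _ _ π u h m hm hom a => ?_⟩
  have hV := (isOpen_V C a).measurableSet
  have hm0 : ∀ a, ∀ z ∈ C.Ω a, 0 ≤ m a z := fun a z hz => (oW_nn K θ h 1 hz).trans (hom a z hz)
  have h1 : ∫ z in C.V a, ‖DB (fun y => vtf θ (fun γ a z => CW.inc W (u γ a z)) 1 a y ξ) z‖ ^ 2 ≤
      B * (|K.Lam| * n) * ∫ z in C.V a, m a z := by
    rw [← integral_const_mul]
    refine setIntegral_mono_on ((vtf_form θ (vmap_of_sec h)).int2 1 a ξ)
      ((intV (hm.cont a)).const_mul _) hV fun z hz => ?_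
    have hz' := H913.V.V_sub C a hz
    refine (vtf_DB K θ h hz' ξ).trans ?_
    exact mul_le_mul (mul_le_mul_of_nonneg_right (hB a z hz) hL) (hom a z hz')
      (oW_nn K θ h 1 hz') (mul_nonneg hB0 hL)
  refine h1.trans ?_
  rw [mul_assoc (B * (|K.Lam| * n))]
  exact mul_le_mul_of_nonneg_left (int_le P K hm hm0 a) (mul_nonneg hB0 hL)

end

/-! ### The action of central elements -/

section cen
variable {n q : ℕ} {Γ : Type} [Group Γ] {C : Coc n Γ} {W : Type} [NormedAddCommGroup W]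
  [InnerProductSpace ℝ W] {π : Γ →* (W ≃ₗᵢ[ℝ] W)} {u : Γ → C.I → Cm n → W}

theorem sec_tr (h : Sec C π 0 u) {c : Γ} (hc : ∀ g, c * g = g * c) : Sec C π 0 (trW π c u) where
  smooth γ a z hz :=
    ((π c).contDiff.contDiffAt.comp z (h.smooth γ a z hz)).sub (h.smooth γ a z hz)
  compat γ a b z hz := by
    show π c (u γ a z) - u γ a z = _
    rw [h.compat γ a b z hz]
    rfl
  equi g γ a z hz := by
    show π c (u (g * γ) a z) - u (g * γ) a z = π g (π c (u γ a z) - u γ a z) + (0 : Γ → W) g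
    have e1 : π c (π g (u γ a z)) = π g (π c (u γ a z)) := by
      have h1 : (π c * π g) (u γ a z) = (π g * π c) (u γ a z) := by
        rw [← map_mul, ← map_mul, hc]
      exact h1
    rw [h.equi g γ a z hz, Pi.zero_apply, add_zero, add_zero, map_sub, e1]

/-- the form of the difference -/
theorem vtf_tr (θ : HF C q) (h : Sec C π 0 u) (c : Γ) {a : C.I} {z : Cm n} (hz : z ∈ C.Ω a)
    (ξ : Fin (q + 1) → Cm n) :
    vtf θ (fun γ a z => CW.inc W (trW π c u γ a z)) 1 a z ξ =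
      vtf θ (fun γ a z => CW.inc W (u γ a z)) c a z ξ -
        vtf θ (fun γ a z => CW.inc W (u γ a z)) 1 a z ξ := by
  have hv := vmap_of_sec h
  rw [vtf_apply, vtf_apply, vtf_apply, ← Finset.sum_sub_distrib]
  refine Finset.sum_congr rfl fun l _ => ?_
  rw [← smul_sub]
  congr 1
  have e1 : (fun y => CW.inc W (trW π c u 1 a y)) =ᶠ[𝓝 z]
      fun y => CW.inc W (u c a y) - CW.inc W (u 1 a y) := by
    filter_upwards [isOpen_ball.mem_nhds hz] with y hy
    have h1 := h.equi c 1 a y hy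
    rw [mul_one, Pi.zero_apply, add_zero] at h1
    rw [← map_sub, h1]
    rfl
  have e2 : ∀ t, fderiv ℝ (fun y => CW.inc W (trW π c u 1 a y)) z t =
      fderiv ℝ (fun y => CW.inc W (u c a y)) z t - fderiv ℝ (fun y => CW.inc W (u 1 a y)) z t := by
    intro t
    rw [e1.fderiv_eq]
    have h2 : HasFDerivAt (fun y => CW.inc W (u c a y) - CW.inc W (u 1 a y)) _ z :=
      (hv.diff c a hz).hasFDerivAt.sub (hv.diff 1 a hz).hasFDerivAt
    rw [h2.fderiv]
    rfl
  rw [DH, DH, DH, e2, e2, ← smul_sub, smul_sub Complex.I]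
  congr 1
  abel

/-- the difference is small if the energy of `π(c) u - u` is small -/
theorem cen_of (P : PU C) (K : KM C) (θ : HF C q) (ξ : Fin (q + 1) → Cm n) :
    ∃ B : ℝ, 0 ≤ B ∧ ∀ (W : Type) [NormedAddCommGroup W] [InnerProductSpace ℝ W]
      (π : Γ →* (W ≃ₗᵢ[ℝ] W)) (u : Γ → C.I → Cm n → W), Sec C π 0 u → ∀ c : Γ,
      (∀ g, c * g = g * c) → ∀ a,
      ∫ z in C.V a, ‖vtf θ (fun γ a z => CW.inc W (u γ a z)) c a z ξ -
        vtf θ (fun γ a z => CW.inc W (u γ a z)) 1 a z ξ‖ ^ 2 ≤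
        B * enW P K θ 0 (trW π c u) (trW π c u) := by
  obtain ⟨B, hB0, hB⟩ := bd_of P K θ ξ
  refine ⟨B, hB0, fun W _ _ π u h c hc a => ?_⟩
  refine le_trans (le_of_eq ?_) (hB W π _ (sec_tr h hc) a)
  refine setIntegral_congr_fun (isOpen_V C a).measurableSet fun z hz => ?_
  show _ = _
  rw [vtf_tr θ h c (H913.V.V_sub C a hz) ξ]

end cen

/-! ### The sequence -/

section seq
variable {n q : ℕ} {Γ : Type} [Group Γ] {C : Coc n Γ} {W : ℕ → Type}
  [∀ k, NormedAddCommGroup (W k)] [∀ k, InnerProductSpace ℝ (W k)]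
  {π : ∀ k, Γ →* (W k ≃ₗᵢ[ℝ] W k)} {u : ∀ k, Γ → C.I → Cm n → W k}

theorem vseq_of (P : PU C) (K : KM C) (θ : HF C q) {U : Ultrafilter ℕ}
    (h : ∀ k, Sec C (π k) 0 (u k)) {E : ℝ} (hE : ∀ k, enW P K θ 0 (u k) (u k) ≤ E)
    {m : ℕ → C.I → Cm n → ℝ} (hm : ∀ k, BD C (m k))
    (hom : ∀ k a, ∀ z ∈ C.Ω a, oW K θ a (u k 1 a) z ≤ m k a z)
    (hm0 : Tendsto (fun k => BInt P K (m k)) U (𝓝 0)) :
    H366.VSeq C U (fun k => CW.rep (π k)) fun k => vtf θ fun γ a z => CW.inc (W k) (u k γ a z) where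
  form k := vtf_form θ (vmap_of_sec (h k))
  bd a ξ := by
    obtain ⟨B, hB0, hB⟩ := bd_of P K θ ξ
    exact ⟨B * E, fun k => (hB (W k) (π k) (u k) (h k) a).trans
      (mul_le_mul_of_nonneg_left (hE k) hB0)⟩
  dbar a ξ := by
    obtain ⟨B, hB0, hB⟩ := db_of P K θ ξ
    refine squeeze_zero (fun k => integral_nonneg fun z => sq_nonneg _)
      (fun k => hB (W k) (π k) (u k) (h k) (m k) (hm k) (hom k) a) ?_
    simpa using hm0.const_mul B

theorem one_of (P : PU C) (K : KM C) (θ : HF C q) {W : Type} [NormedAddCommGroup W]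
    [InnerProductSpace ℝ W] {π : Γ →* (W ≃ₗᵢ[ℝ] W)} {u : Γ → C.I → Cm n → W}
    (h : Sec C π 0 u) :
    BInt P K (dnV K (vtf θ fun γ a z => CW.inc W (u γ a z))) = enW P K θ 0 u u :=
  H66.S7.BInt_congr P K fun a z hz => dnV_vW K θ h (H913.V.V_sub C a hz)

/-- **from the densities to the output of (A'')** -/
theorem aOutV_of (P : PU C) (K : KM C) (θ : HF C q) {F : Γ → C.I → Cm n → Cm q} {c : Γ → Cm q}
    {ι : Type} {ζ : ι → Γ} (hζ : ∀ i g, ζ i * g = g * ζ i) {U : Ultrafilter ℕ}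
    (h : ∀ k, Sec C (π k) 0 (u k)) (h1 : ∀ k, enW P K θ 0 (u k) (u k) = 1)
    {m : ℕ → C.I → Cm n → ℝ} (hm : ∀ k, BD C (m k))
    (hom : ∀ k a, ∀ z ∈ C.Ω a, oW K θ a (u k 1 a) z ≤ m k a z)
    (hm0 : Tendsto (fun k => BInt P K (m k)) U (𝓝 0))
    (hc : ∀ i, Tendsto (fun k => enW P K θ 0 (trW (π k) (ζ i) (u k)) (trW (π k) (ζ i) (u k))) U
      (𝓝 0))
    (hflat : FlatV P K F c U fun k => vtf θ fun γ a z => CW.inc (W k) (u k γ a z)) :
    AOutV P K θ F c ζ U π u where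
  sec := h
  seq := vseq_of P K θ h (fun k => (h1 k).le) hm hom hm0
  one k := (one_of P K θ (h k)).trans (h1 k)
  flat := hflat
  cen i a ξ := by
    obtain ⟨B, hB0, hB⟩ := cen_of P K θ ξ
    refine squeeze_zero (fun k => integral_nonneg fun z => sq_nonneg _)
      (fun k => hB (W k) (π k) (u k) (h k) (ζ i) (hζ i) a) ?_
    simpa using (hc i).const_mul B

end seq

end Vale.Agent.P284.H551.Rel
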