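import Vale.Agent.P284.H366.V.VM
import Vale.Agent.P284.H402.T.Spec
import Vale.Agent.P284.H402.B.TF4

/-!
# P284, theorem T3 (helper551): the densities of the form `θ_1 ∧ … ∧ θ_q ∧ ∂u` for a section `u` with
values in a real Hilbert space, pointwise
-/

open scoped Manifold ContDiff Topology Pointwise ComplexConjugate ComplexOrder Matrix InnerProductSpace
open Filter Set Metric MeasureTheory

noncomputable section

set_option linter.unusedSectionVars false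

namespace Vale.Agent.P284.H551.Rel

open Vale.Agent.P272.K Vale.Agent.P272.K.C2 Vale.Agent.P284.H248 Vale.Agent.P284.H894
  Vale.Agent.P284.H894.G Vale.Agent.P284.H894.V Vale.Agent.P284.H402.A Vale.Agent.P284.H402.T
  Vale.Agent.P284.H366

open Vale.Agent.P284.H287.T (dH ddH sg Sec cmp Good exists_good exists_good₂ ddH_cmp dH_cmp
  cmp_contDiffAt ev_diff dd_diff)

open Vale.Agent.P284.H359.V (ev)

/-! ### Parseval's identity -/

section par
variable {W : Type} [NormedAddCommGroup W] [InnerProductSpace ℝ W] {m : ℕ} {e : Fin m → W}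

/-- Parseval's identity for `v` -/
def PE (e : Fin m → W) (v : W) : Prop := ∀ y : W, ⟪v, y⟫_ℝ = ∑ i, ⟪v, e i⟫_ℝ * ⟪y, e i⟫_ℝ

lemma PE.add {v w : W} (hv : PE e v) (hw : PE e w) : PE e (v + w) := fun y => by
  rw [inner_add_left, hv y, hw y, ← Finset.sum_add_distrib]
  refine Finset.sum_congr rfl fun i _ => ?_
  rw [inner_add_left]
  ring

lemma PE.smul {v : W} (hv : PE e v) (r : ℝ) : PE e (r • v) := fun y => by
  rw [real_inner_smul_left, hv y, Finset.mul_sum]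
  refine Finset.sum_congr rfl fun i _ => ?_
  rw [real_inner_smul_left]
  ring

lemma PE.zero : PE e (0 : W) := fun y => by simp

lemma PE.sub {v w : W} (hv : PE e v) (hw : PE e w) : PE e (v - w) := by
  have := hv.add (hw.smul (-1))
  rwa [neg_one_smul, ← sub_eq_add_neg] at this

/-- Parseval's identity for the real and the imaginary part -/
def PC (e : Fin m → W) (x : CW W) : Prop := PE e x.x ∧ PE e x.y

lemma PC.add {v w : CW W} (hv : PC e v) (hw : PC e w) : PC e (v + w) :=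
  ⟨hv.1.add hw.1, hv.2.add hw.2⟩

lemma PC.smul {v : CW W} (hv : PC e v) (c : ℂ) : PC e (c • v) :=
  ⟨(hv.1.smul _).sub (hv.2.smul _), (hv.2.smul _).add (hv.1.smul _)⟩

lemma PC.zero : PC e (0 : CW W) := ⟨PE.zero, PE.zero⟩

lemma PC.sub {v w : CW W} (hv : PC e v) (hw : PC e w) : PC e (v - w) :=
  ⟨hv.1.sub hw.1, hv.2.sub hw.2⟩

lemma PC.sum {ι : Type} {s : Finset ι} {f : ι → CW W} (h : ∀ i ∈ s, PC e (f i)) :
    PC e (∑ i ∈ s, f i) := by
  classical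
  induction s using Finset.induction_on with
  | empty => exact PC.zero
  | insert i s hi ih =>
    rw [Finset.sum_insert hi]
    exact (h i (Finset.mem_insert_self _ _)).add (ih fun j hj => h j (Finset.mem_insert_of_mem hj))

lemma PC.inc {v : W} (hv : PE e v) : PC e (CW.inc W v) := ⟨hv, PE.zero⟩

/-- the components of a vector -/
lemma PC.inner {x : CW W} (hx : PC e x) (y : CW W) :
    ⟪x, y⟫_ℂ = ∑ i, conj ⟪CW.inc W (e i), x⟫_ℂ * ⟪CW.inc W (e i), y⟫_ℂ := by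
  have e1 : ∀ (i : Fin m) (x : CW W), ⟪CW.inc W (e i), x⟫_ℂ = ⟨⟪x.x, e i⟫_ℝ, ⟪x.y, e i⟫_ℝ⟩ := by
    intro i x
    rw [CW.inner_def, CW.inc_apply, real_inner_comm (e i) x.x, real_inner_comm (e i) x.y]
    simp
  simp only [e1]
  rw [CW.inner_def, hx.1 y.x, hx.2 y.y, hx.1 y.y, hx.2 y.x]
  apply Complex.ext
  · show (∑ i, ⟪x.x, e i⟫_ℝ * ⟪y.x, e i⟫_ℝ) + ∑ i, ⟪x.y, e i⟫_ℝ * ⟪y.y, e i⟫_ℝ = _
    rw [Complex.re_sum, ← Finset.sum_add_distrib]
    refine Finset.sum_congr rfl fun i _ => ?_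
    simp
  · show (∑ i, ⟪x.x, e i⟫_ℝ * ⟪y.y, e i⟫_ℝ) - ∑ i, ⟪x.y, e i⟫_ℝ * ⟪y.x, e i⟫_ℝ = _
    rw [Complex.im_sum, ← Finset.sum_sub_distrib]
    refine Finset.sum_congr rfl fun i _ => ?_
    simp
    ring

lemma PC.norm_sq {x : CW W} (hx : PC e x) : ‖x‖ ^ 2 = ∑ i, ‖⟪CW.inc W (e i), x⟫_ℂ‖ ^ 2 := by
  have h := hx.inner x
  have h1 : ((‖x‖ ^ 2 : ℝ) : ℂ) = ((∑ i, ‖⟪CW.inc W (e i), x⟫_ℂ‖ ^ 2 : ℝ) : ℂ) := by
    have h2 : ⟪x, x⟫_ℂ = ((‖x‖ ^ 2 : ℝ) : ℂ) := by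
      rw [inner_self_eq_norm_sq_to_K]
      push_cast
      rfl
    rw [← h2, h]
    push_cast
    refine Finset.sum_congr rfl fun i _ => ?_
    rw [← Complex.normSq_eq_conj_mul_self, Complex.normSq_eq_norm_sq]
    push_cast
    rfl
  exact_mod_cast h1

end par

/-! ### The derivatives -/

section der
variable {n : ℕ} {W : Type} [NormedAddCommGroup W] [InnerProductSpace ℝ W] {m : ℕ} {e : Fin m → W}
  {u : Cm n → W} {z : Cm n}

lemma PE.sum {ι : Type} {s : Finset ι} {f : ι → W} (h : ∀ i ∈ s, PE e (f i)) :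
    PE e (∑ i ∈ s, f i) := by
  classical
  induction s using Finset.induction_on with
  | empty => exact PE.zero
  | insert i s hi ih =>
    rw [Finset.sum_insert hi]
    exact (h i (Finset.mem_insert_self _ _)).add (ih fun j hj => h j (Finset.mem_insert_of_mem hj))

lemma real_coord (t : Cm n) :
    t = ∑ j : Fin n, ((t j).re • ev (j, false) + (t j).im • ev (j, true)) := by
  funext i
  rw [Finset.sum_apply, Finset.sum_eq_single i]
  · simp only [ev, Pi.add_apply, Pi.smul_apply, Pi.single_eq_same]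
    apply Complex.ext <;> simp
  · intro j _ hj
    simp [ev, hj.symm]
  · simp

/-- linear maps -/
lemma PE_lin (L : Cm n →L[ℝ] W) (h : ∀ a, PE e (L (ev a))) (t : Cm n) : PE e (L t) := by
  rw [real_coord t, map_sum]
  refine PE.sum fun j _ => ?_
  rw [map_add, map_smul, map_smul]
  exact ((h _).smul _).add ((h _).smul _)

lemma PE_d1 (hg : Good u z e) (t : Cm n) : PE e (fderiv ℝ u z t) := PE_lin _ hg.d1 t

lemma dd_clm (hu : ContDiffAt ℝ 2 u z) (s t : Cm n) :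
    fderiv ℝ (fun y => fderiv ℝ u y s) z t = fderiv ℝ (fderiv ℝ u) z t s := by
  have h1 : DifferentiableAt ℝ (fderiv ℝ u) z :=
    (hu.fderiv_right (m := 1) (by norm_num)).differentiableAt (by norm_num)
  have h2 := (h1.hasFDerivAt.clm_apply (hasFDerivAt_const s z)).fderiv
  have h3 := congrArg (fun L => L t) h2
  refine h3.trans ?_
  simp

lemma PE_d2 (hg : Good u z e) (hu : ContDiffAt ℝ 2 u z) (s t : Cm n) :
    PE e (fderiv ℝ (fun y => fderiv ℝ u y s) z t) := by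
  refine PE_lin _ (fun a => ?_) t
  rw [dd_clm hu]
  refine PE_lin _ (fun b => ?_) s
  rw [← dd_clm hu]
  exact hg.d2 a b

lemma fd_inc (hu : DifferentiableAt ℝ u z) (t : Cm n) :
    fderiv ℝ (fun y => CW.inc W (u y)) z t = CW.inc W (fderiv ℝ u z t) := by
  have h1 := ((CW.inc W).toContinuousLinearMap.hasFDerivAt.comp z hu.hasFDerivAt).fderiv
  exact congrArg (fun L => L t) h1

lemma DH_inc (hu : DifferentiableAt ℝ u z) (s : Cm n) : DH (fun y => CW.inc W (u y)) z s =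
    (1 / 2 : ℂ) • (CW.inc W (fderiv ℝ u z s) -
      Complex.I • CW.inc W (fderiv ℝ u z (Complex.I • s))) := by
  rw [DH, fd_inc hu, fd_inc hu]

lemma PC_DH (hg : Good u z e) (hu : DifferentiableAt ℝ u z) (s : Cm n) :
    PC e (DH (fun y => CW.inc W (u y)) z s) := by
  rw [DH_inc hu]
  exact ((PC.inc (PE_d1 hg _)).sub ((PC.inc (PE_d1 hg _)).smul _)).smul _

lemma fd_DH (hu : ContDiffAt ℝ 2 u z) (s : Cm n) :
    DifferentiableAt ℝ (fun y => DH (fun y => CW.inc W (u y)) y s) z ∧ ∀ t,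
    fderiv ℝ (fun y => DH (fun y => CW.inc W (u y)) y s) z t =
      (1 / 2 : ℂ) • (CW.inc W (fderiv ℝ (fun y => fderiv ℝ u y s) z t) -
        Complex.I • CW.inc W (fderiv ℝ (fun y => fderiv ℝ u y (Complex.I • s)) z t)) := by
  have h0 : (fun y => DH (fun y => CW.inc W (u y)) y s) =ᶠ[𝓝 z] fun y =>
      (1 / 2 : ℂ) • (CW.inc W (fderiv ℝ u y s) -
        Complex.I • CW.inc W (fderiv ℝ u y (Complex.I • s))) := by
    filter_upwards [ev_diff hu] with y hy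
    exact DH_inc hy s
  have h1 : ∀ s : Cm n, HasFDerivAt (fun y => CW.inc W (fderiv ℝ u y s))
      ((CW.inc W).toContinuousLinearMap.comp (fderiv ℝ (fun y => fderiv ℝ u y s) z)) z := fun s =>
    (CW.inc W).toContinuousLinearMap.hasFDerivAt.comp z (dd_diff hu s).hasFDerivAt
  have h2 := (((h1 s).sub ((h1 (Complex.I • s)).const_smul Complex.I)).const_smul (1 / 2 : ℂ))
  have h3 := h2.congr_of_eventuallyEq h0
  refine ⟨h3.differentiableAt, fun t => ?_⟩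
  rw [h3.fderiv]
  rfl

lemma PC_fd (hg : Good u z e) (hu : ContDiffAt ℝ 2 u z) (s t : Cm n) :
    PC e (fderiv ℝ (fun y => DH (fun y => CW.inc W (u y)) y s) z t) := by
  rw [(fd_DH hu s).2]
  exact ((PC.inc (PE_d2 hg hu _ _)).sub ((PC.inc (PE_d2 hg hu _ _)).smul _)).smul _

/-- combinations of first derivatives with smooth coefficients -/
lemma PC_comb (hg : Good u z e) (hu : ContDiffAt ℝ 2 u z) {ι : Type} (F : Finset ι)
    {c : ι → Cm n → ℂ} (hc : ∀ i, DifferentiableAt ℝ (c i) z) (s : ι → Cm n) (t : Cm n) :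
    PC e (fderiv ℝ (fun y => ∑ i ∈ F, c i y • DH (fun y => CW.inc W (u y)) y (s i)) z t) := by
  have h1 : HasFDerivAt (fun y => ∑ i ∈ F, c i y • DH (fun y => CW.inc W (u y)) y (s i)) _ z :=
    HasFDerivAt.fun_sum fun i _ => (hc i).hasFDerivAt.smul ((fd_DH hu (s i)).1.hasFDerivAt)
  rw [h1.fderiv, sum_apply]
  refine PC.sum fun i _ => ?_
  rw [add_apply]
  refine PC.add ?_ ?_
  · exact (PC_fd hg hu (s i) t).smul (c i z)
  · exact (PC_DH hg (hu.differentiableAt (by norm_num)) (s i)).smul (fderiv ℝ (c i) z t)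

end der

/-! ### One function -/

section fn
variable {n q : ℕ} {Γ : Type} [Group Γ] {C : Coc n Γ} {F : Cm n → ℝ} {a : C.I} {z : Cm n}

lemma fn_DB (θ : HF C q) (hz : z ∈ C.Ω a) (hF : ContDiffAt ℝ ∞ F z)
    (ξ : Fin (q + 1) → Cm n) (t : Cm n) :
    DB (fun y => wd (bm (θ.th a y) (pd F y)) ξ) z t =
      wd (bm (θ.th a z) (cHess F z *ᵥ fun m => conj (t m))) ξ := by
  have hbm : ∀ l r, ContDiffAt ℝ ∞ (fun y => bm (θ.th a y) (pd F y) l r) z := by
    intro l r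
    refine Fin.lastCases ?_ (fun r => ?_) r
    · simp only [bm_last]
      exact smooth_pd hF l
    · simp only [bm_castSucc]
      exact th_mc θ hz l r
  have h := DB_wd (A := fun y => bm (θ.th a y) (pd F y)) (z := z)
    (fun l r => (hbm l r).differentiableAt (by simp)) ξ t
  rw [h, Fin.sum_univ_castSucc, Finset.sum_eq_zero, zero_add]
  · have e : (fun l => DB (fun y => bm (θ.th a y) (pd F y) l (Fin.last q)) z t) =
        cHess F z *ᵥ fun m => conj (t m) := by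
      funext l
      simp only [bm_last]
      rw [DB_complex]
      simp only [Matrix.mulVec, dotProduct]
      refine Finset.sum_congr rfl fun m _ => ?_
      have h1 : ContDiffAt ℝ 2 (fun y => ((F y : ℝ) : ℂ)) z :=
        (C2.contDiffAt_ofReal hF).of_le
          (WithTop.coe_le_coe.2 le_top : ((2 : ℕ∞) : WithTop ℕ∞) ≤ ((⊤ : ℕ∞) : WithTop ℕ∞))
      have h3 : dzb m (fun y => pd F y l) z = cHess F z l m := by
        show dzb m (dz l fun y => ((F y : ℝ) : ℂ)) z = dz l (dzb m fun y => ((F y : ℝ) : ℂ)) z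
        exact (INT.dz_dzb_comm h1).symm
      rw [h3, mul_comm]
    rw [e, bm_updateCol]
  · intro r _
    refine wd_zero_col (r := r.castSucc) (fun i => ?_) ξ
    rw [Matrix.updateCol_self]
    simp only [bm_castSucc]
    exact DB_th θ hz i r t

lemma frame_nn (K : KM C) (hz : z ∈ C.Ω a) {p : ℕ} (ξ : Fin p → Cm n) :
    0 ≤ (Matrix.of ξ * K.w a z * (Matrix.of ξ)ᴴ).det.re := by
  have h1 := ((w_pos K hz).posSemidef.mul_mul_conjTranspose_same (Matrix.of ξ)).det_nonneg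
  exact (Complex.le_def.1 h1).1

lemma fn_bd (K : KM C) (θ : HF C q) (hz : z ∈ C.Ω a) (ξ : Fin (q + 1) → Cm n) :
    ‖wd (bm (θ.th a z) (pd F z)) ξ‖ ^ 2 ≤ (Matrix.of ξ * K.w a z * (Matrix.of ξ)ᴴ).det.re *
      qf (AA (K.w a z) (θ.th a z) 0) (pd F z) (pd F z) := by
  rw [bord_eq H279.a2Stmt (w_pos K hz)]
  exact wd_bound (w_pos K hz) _ ξ

lemma fn_bd2 (K : KM C) (θ : HF C q) (hz : z ∈ C.Ω a) (hF : ContDiffAt ℝ ∞ F z)
    (ξ : Fin (q + 1) → Cm n) (t : Cm n) :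
    ‖wd (bm (θ.th a z) (cHess F z *ᵥ fun m => conj (t m))) ξ‖ ^ 2 ≤
      (Matrix.of ξ * K.w a z * (Matrix.of ξ)ᴴ).det.re * (|K.Lam| * n) * ‖t‖ ^ 2 *
        tr2 (AA (K.w a z) (θ.th a z) 0) (K.w a z)⁻¹ (cHess F z) := by
  have hw := w_pos K hz
  have hAA := H279.a2Stmt.herm (K.w a z) (θ.th a z) 0 hw le_rfl
  have hx : (cHess F z).IsHermitian := C2.cHess_isHermitian (hF.of_le
    (WithTop.coe_le_coe.2 le_top : ((2 : ℕ∞) : WithTop ℕ∞) ≤ ((⊤ : ℕ∞) : WithTop ℕ∞)))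
  set x := cHess F z with hxd
  have hoA : tr2 (AA (K.w a z) (θ.th a z) 0) (K.w a z)⁻¹ x =
      (AA (K.w a z) (θ.th a z) 0 * x * (K.w a z)⁻¹ * xᴴ).trace.re := by
    rw [tr2, hx.eq]
    simp only [Matrix.mul_assoc]
  have h0 : 0 ≤ tr2 (AA (K.w a z) (θ.th a z) 0) (K.w a z)⁻¹ x :=
    (H279.a2Stmt.tr_nonneg (K.w a z) (θ.th a z) 0 x hw le_rfl hx).1
  have h3 := wd_bound hw (bm (θ.th a z) (x *ᵥ fun m => conj (t m))) ξ
  rw [← bord_eq H279.a2Stmt hw, qf] at h3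
  have h4 := quad_hess hAA hw x fun m => conj (t m)
  rw [← hoA] at h4
  have h5 : (star (fun m => conj (t m)) ⬝ᵥ K.w a z *ᵥ fun m => conj (t m)).re ≤
      |K.Lam| * n * ‖t‖ ^ 2 := by
    have e1 : (star (fun m => conj (t m)) ⬝ᵥ K.w a z *ᵥ fun m => conj (t m)) =
        ∑ j, ∑ k, K.w a z j k * t j * conj (t k) := by
      simp only [dotProduct, Matrix.mulVec, Pi.star_apply, RCLike.star_def, Complex.conj_conj,
        Finset.mul_sum]
      refine Finset.sum_congr rfl fun j _ => Finset.sum_congr rfl fun k _ => ?_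
      ring
    rw [e1]
    refine (K.up a z hz t).trans ?_
    have h6 : ∑ j, ‖t j‖ ^ 2 ≤ n * ‖t‖ ^ 2 := by
      have : ∑ j, ‖t j‖ ^ 2 ≤ ∑ _j : Fin n, ‖t‖ ^ 2 :=
        Finset.sum_le_sum fun j _ => pow_le_pow_left₀ (norm_nonneg _) (norm_le_pi_norm t j) 2
      simpa using this
    have h7 : 0 ≤ ∑ j, ‖t j‖ ^ 2 := Finset.sum_nonneg fun _ _ => sq_nonneg _
    calc K.Lam * ∑ j, ‖t j‖ ^ 2 ≤ |K.Lam| * ∑ j, ‖t j‖ ^ 2 :=
          mul_le_mul_of_nonneg_right (le_abs_self _) h7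
      _ ≤ |K.Lam| * (n * ‖t‖ ^ 2) := mul_le_mul_of_nonneg_left h6 (abs_nonneg _)
      _ = _ := by ring
  calc _ ≤ (Matrix.of ξ * K.w a z * (Matrix.of ξ)ᴴ).det.re *
        ((star (x *ᵥ fun m => conj (t m)) ⬝ᵥ AA (K.w a z) (θ.th a z) 0 *ᵥ
          (x *ᵥ fun m => conj (t m))).re) := h3
    _ ≤ (Matrix.of ξ * K.w a z * (Matrix.of ξ)ᴴ).det.re *
        ((|K.Lam| * n * ‖t‖ ^ 2) * tr2 (AA (K.w a z) (θ.th a z) 0) (K.w a z)⁻¹ x) := by
        refine mul_le_mul_of_nonneg_left (h4.trans ?_) (frame_nn K hz ξ)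
        exact mul_le_mul_of_nonneg_right h5 h0
    _ = _ := by ring

end fn

/-! ### The form -/

section form
variable {n q : ℕ} {Γ : Type} [Group Γ] {C : Coc n Γ} {W : Type} [NormedAddCommGroup W]
  [InnerProductSpace ℝ W] {π : Γ →* (W ≃ₗᵢ[ℝ] W)} {u : Γ → C.I → Cm n → W}

/-- the section with values in the complexification -/
def cx (u : Γ → C.I → Cm n → W) : Γ → C.I → Cm n → CW W := fun γ a z => CW.inc W (u γ a z)

lemma inner_cx (θ : HF C q) (h : Sec C π 0 u) (γ : Γ) (a : C.I) {z : Cm n} (hz : z ∈ C.Ω a)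
    (η : W) (ξ : Fin (q + 1) → Cm n) :
    ⟪CW.inc W η, vtf θ (cx u) γ a z ξ⟫_ℂ = wd (bm (θ.th a z) (pd (cmp (u γ a) η) z)) ξ := by
  refine (inner_vtf θ (vmap_of_sec h) γ a hz (CW.inc W η) ξ).trans ?_
  congr 3
  funext l
  show _ = dz l (fun y => ((cmp (u γ a) η y : ℝ) : ℂ)) z
  congr 1
  funext y
  show ⟪CW.inc W η, CW.inc W (u γ a y)⟫_ℂ = _
  rw [CW.inner_inc, real_inner_comm]
  rfl

lemma inner_cx_DB (θ : HF C q) (h : Sec C π 0 u) (γ : Γ) (a : C.I) {z : Cm n} (hz : z ∈ C.Ω a)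
    (η : W) (ξ : Fin (q + 1) → Cm n) (t : Cm n) :
    ⟪CW.inc W η, DB (fun y => vtf θ (cx u) γ a y ξ) z t⟫_ℂ =
      wd (bm (θ.th a z) (cHess (cmp (u γ a) η) z *ᵥ fun m => conj (t m))) ξ := by
  refine (inner_DB ((vtf_form θ (vmap_of_sec h)).diff γ a ξ hz) (CW.inc W η) t).trans ?_
  have e : (fun y => ⟪CW.inc W η, vtf θ (cx u) γ a y ξ⟫_ℂ) =ᶠ[𝓝 z]
      fun y => wd (bm (θ.th a y) (pd (cmp (u γ a) η) y)) ξ := by
    filter_upwards [isOpen_ball.mem_nhds hz] with y hy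
    exact inner_cx θ h γ a hy η ξ
  have e2 : DB (fun y => ⟪CW.inc W η, vtf θ (cx u) γ a y ξ⟫_ℂ) z =
      DB (fun y => wd (bm (θ.th a y) (pd (cmp (u γ a) η) y)) ξ) z := DB_congr e
  exact (congrArg (fun L => L t) e2).trans
    (fn_DB θ hz (cmp_contDiffAt (h.smooth γ a z hz) η) ξ t)

variable {m : ℕ} {e : Fin m → W}

lemma PC_vtf (θ : HF C q) (h : Sec C π 0 u) (γ : Γ) (a : C.I) {z : Cm n} (hz : z ∈ C.Ω a)
    (hg : Good (u γ a) z e) (ξ : Fin (q + 1) → Cm n) : PC e (vtf θ (cx u) γ a z ξ) := by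
  rw [vtf_apply]
  exact PC.sum fun l _ => (PC_DH hg ((h.smooth γ a z hz).differentiableAt (by simp)) _).smul _

lemma PC_vtf_DB (θ : HF C q) (h : Sec C π 0 u) (γ : Γ) (a : C.I) {z : Cm n} (hz : z ∈ C.Ω a)
    (hg : Good (u γ a) z e) (ξ : Fin (q + 1) → Cm n) (t : Cm n) :
    PC e (DB (fun y => vtf θ (cx u) γ a y ξ) z t) := by
  have hu : ContDiffAt ℝ 2 (u γ a) z := (h.smooth γ a z hz).of_le H287.T.two_le
  have hc : ∀ l : Fin n, DifferentiableAt ℝ
      (fun y => wd (bm (θ.th a y) (Pi.single l 1)) ξ) z := by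
    intro l
    refine (wd_smooth (k := ∞) (fun i r => ?_) ξ).differentiableAt (by simp)
    refine Fin.lastCases ?_ (fun r => ?_) r
    · simp only [bm_last]
      exact contDiffAt_const
    · simp only [bm_castSucc]
      exact th_mc θ hz i r
  have h1 : ∀ t, PC e (fderiv ℝ (fun y => vtf θ (cx u) γ a y ξ) z t) := by
    intro t
    have := PC_comb hg hu Finset.univ hc (fun l => Pi.single l 1) t
    simp only [vtf_apply]
    exact this
  rw [DB_apply]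
  exact ((h1 _).add ((h1 _).smul _)).smul _

/-- **(a)** the density is the norm of the form -/
theorem dnV_eq (K : KM C) (θ : HF C q) (h : Sec C π 0 u) {a : C.I} {z : Cm n} (hz : z ∈ C.Ω a) :
    hN (K.w a z)⁻¹ (fun J => vtf θ (cx u) 1 a z (eJ J)) = vW K θ 0 a (u 1 a) (u 1 a) z := by
  obtain ⟨m, e, hg⟩ := exists_good (u 1 a) z
  have hd : DifferentiableAt ℝ (u 1 a) z := (h.smooth 1 a z hz).differentiableAt (by simp)
  rw [vW, Good_gM hg _ hd hd]
  have h1 : ∀ i, qf (AA (K.w a z) (θ.th a z) 0) (pd (cmp (u 1 a) (e i)) z)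
      (pd (cmp (u 1 a) (e i)) z) =
      hN (K.w a z)⁻¹ fun J => ⟪CW.inc W (e i), vtf θ (cx u) 1 a z (eJ J)⟫_ℂ := by
    intro i
    rw [bord_eq H279.a2Stmt (w_pos K hz), hN_wd]
    congr 1
    funext J
    exact (inner_cx θ h 1 a hz (e i) (eJ J)).symm
  rw [Finset.sum_congr rfl fun i _ => h1 i]
  simp only [hN]
  rw [← Complex.re_sum, ← Finset.mul_sum]
  congr 2
  conv_rhs => rw [Finset.sum_comm]
  refine Finset.sum_congr rfl fun J _ => ?_
  conv_rhs => rw [Finset.sum_comm]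
  refine Finset.sum_congr rfl fun J' _ => ?_
  rw [(PC_vtf θ h 1 a hz hg (eJ J)).inner, Finset.mul_sum]
  refine Finset.sum_congr rfl fun i _ => ?_
  rw [RCLike.inner_apply, mul_comm (conj _)]

/-- **(c)** -/
theorem vtf_bd (K : KM C) (θ : HF C q) (h : Sec C π 0 u) {a : C.I} {z : Cm n} (hz : z ∈ C.Ω a)
    (ξ : Fin (q + 1) → Cm n) : ‖vtf θ (cx u) 1 a z ξ‖ ^ 2 ≤
      (Matrix.of ξ * K.w a z * (Matrix.of ξ)ᴴ).det.re * vW K θ 0 a (u 1 a) (u 1 a) z := by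
  obtain ⟨m, e, hg⟩ := exists_good (u 1 a) z
  have hd : DifferentiableAt ℝ (u 1 a) z := (h.smooth 1 a z hz).differentiableAt (by simp)
  rw [vW, Good_gM hg _ hd hd, (PC_vtf θ h 1 a hz hg ξ).norm_sq, Finset.mul_sum]
  refine Finset.sum_le_sum fun i _ => ?_
  rw [inner_cx θ h 1 a hz (e i) ξ]
  exact fn_bd K θ hz ξ

theorem oW_nn (K : KM C) (θ : HF C q) (h : Sec C π 0 u) (γ : Γ) {a : C.I} {z : Cm n}
    (hz : z ∈ C.Ω a) : 0 ≤ oW K θ a (u γ a) z := by
  obtain ⟨m, e, hg⟩ := exists_good (u γ a) z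
  have hu : ContDiffAt ℝ 2 (u γ a) z := (h.smooth γ a z hz).of_le H287.T.two_le
  rw [oW, Good_tM' hg _ _ hu]
  exact Finset.sum_nonneg fun i _ => (H279.a2Stmt.tr_nonneg (K.w a z) (θ.th a z) 0 _ (w_pos K hz)
    le_rfl (C2.cHess_isHermitian (cmp_contDiffAt hu (e i)))).1

theorem vW_nn (K : KM C) (θ : HF C q) (h : Sec C π 0 u) (γ : Γ) {a : C.I} {z : Cm n}
    (hz : z ∈ C.Ω a) : 0 ≤ vW K θ 0 a (u γ a) (u γ a) z := by
  obtain ⟨m, e, hg⟩ := exists_good (u γ a) z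
  have hd : DifferentiableAt ℝ (u γ a) z := (h.smooth γ a z hz).differentiableAt (by simp)
  rw [vW, Good_gM hg _ hd hd]
  exact Finset.sum_nonneg fun i _ => H402.A.qf_nonneg (H279.a2Stmt.herm _ _ 0 (w_pos K hz) le_rfl) _

/-- **(b)** -/
theorem vtf_DB (K : KM C) (θ : HF C q) (h : Sec C π 0 u) {a : C.I} {z : Cm n} (hz : z ∈ C.Ω a)
    (ξ : Fin (q + 1) → Cm n) : ‖DB (fun y => vtf θ (cx u) 1 a y ξ) z‖ ^ 2 ≤
      (Matrix.of ξ * K.w a z * (Matrix.of ξ)ᴴ).det.re * (|K.Lam| * n) *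
        oW K θ a (u 1 a) z := by
  obtain ⟨m, e, hg⟩ := exists_good (u 1 a) z
  have hu : ContDiffAt ℝ 2 (u 1 a) z := (h.smooth 1 a z hz).of_le H287.T.two_le
  have h10 : 0 ≤ (Matrix.of ξ * K.w a z * (Matrix.of ξ)ᴴ).det.re * (|K.Lam| * n) *
      oW K θ a (u 1 a) z :=
    mul_nonneg (mul_nonneg (frame_nn K hz ξ) (by positivity)) (oW_nn K θ h 1 hz)
  have key : ∀ t : Cm n, ‖DB (fun y => vtf θ (cx u) 1 a y ξ) z t‖ ^ 2 ≤
      (Matrix.of ξ * K.w a z * (Matrix.of ξ)ᴴ).det.re * (|K.Lam| * n) *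
        oW K θ a (u 1 a) z * ‖t‖ ^ 2 := by
    intro t
    rw [oW, Good_tM' hg _ _ hu, (PC_vtf_DB θ h 1 a hz hg ξ t).norm_sq, Finset.mul_sum,
      Finset.sum_mul]
    refine Finset.sum_le_sum fun i _ => ?_
    rw [inner_cx_DB θ h 1 a hz (e i) ξ t]
    refine (fn_bd2 K θ hz (cmp_contDiffAt (h.smooth 1 a z hz) (e i)) ξ t).trans (le_of_eq ?_)
    ring
  have h9 : ‖DB (fun y => vtf θ (cx u) 1 a y ξ) z‖ ≤
      Real.sqrt ((Matrix.of ξ * K.w a z * (Matrix.of ξ)ᴴ).det.re * (|K.Lam| * n) *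
        oW K θ a (u 1 a) z) := by
    refine ContinuousLinearMap.opNorm_le_bound _ (Real.sqrt_nonneg _) fun t => ?_
    rw [← Real.sqrt_sq (norm_nonneg t), ← Real.sqrt_mul' _ (sq_nonneg _)]
    exact Real.le_sqrt_of_sq_le (key t)
  calc _ ≤ (Real.sqrt ((Matrix.of ξ * K.w a z * (Matrix.of ξ)ᴴ).det.re * (|K.Lam| * n) *
        oW K θ a (u 1 a) z)) ^ 2 := pow_le_pow_left₀ (norm_nonneg _) h9 2
    _ = _ := Real.sq_sqrt h10

end form

end Vale.Agent.P284.H551.Rel
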